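import Vale.Agent.P286.Gen.Main

/-!
# Quantum geometric Langlands for the projective line and all simple groups but those of type `B`, `C`

Let `G'` be a connected simple algebraic group over `ℂ`, given as the Zariski closure of a subgroup
`Γ` of `SL_N(ℂ)`, and let `G = G'/Z` for a finite central subgroup `Z`; every connected simple
group is of this form, even with `Z = 1`.  For all irrational `c` the DG category
`D_c(Bun_G(ℙ¹))` is equivalent to the DG category of `D`-modules on `BG'`.  Hence it is equivalent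
to `D_{-1/(rc)}(Bun_{G'/Z'}(ℙ¹))` for every finite central subgroup `Z'` of `G'`.

If `G` is of type `A_n`, `B_2 = C_2`, `D_n`, `E_6`, `E_7`, `E_8`, `F_4` or `G_2`, then the root
system of `G` is isomorphic to its dual, so that for the simply connected cover `G'` of `G` there
are finite central subgroups `Z` and `Z'` with `G = G'/Z` and `G^∨ = G'/Z'`.  Then the result
for `h = h^∨` and the lacing number `r` of `G` is the conjectured equivalence
`D_c(Bun_G(ℙ¹)) ≃ D_{-1/(rc)}(Bun_{G^∨}(ℙ¹))`.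
-/

namespace Vale.Agent.Results.P286.GenusZeroSimple

open Vale.Agent.P286.St Vale.Agent.P286.Gen Matrix

/-- The stack `Bun_G(ℙ¹)` for `G = Γ'/Z`, where `Γ'` is the Zariski closure of `Γ`, with its
canonical bundle `ω` and the twist `(h - c)/(2h)`. -/
noncomputable def DBun {N : ℕ} (Γ Z : Gps N) (m : ℕ) (h : ℕ) (c : ℂ) : TSite :=
  BunG Γ Z m (((h : ℂ) - c) / (2 * h))

/-- The finite group `Z` is a central subgroup of `Γ`, and its exponent divides `m`. -/
def IsCentral {N : ℕ} (Γ Z : Gps N) (m : ℕ) : Prop :=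
  m ≠ 0 ∧ Finite Z ∧ ∀ ζ ∈ Z, (ζ ∈ Γ ∧ ∀ γ ∈ Γ, ζ * γ = γ * ζ) ∧ ζ ^ m = 1

/-- Quantum geometric Langlands on the projective line at irrational level. -/
theorem result : ∀ (N : ℕ) (Γ : Gps N),
    (Ideal.span (van Γ)).IsPrime → LieAlgebra.IsSimple ℂ (lieAlg Γ) →
    ∀ (Z Z' : Gps N) (m m' : ℕ), IsCentral Γ Z m → IsCentral Γ Z' m' →
    ∀ (h r : ℕ), 0 < h → 0 < r → ∀ c : ℂ, (∀ q : ℚ, c ≠ (q : ℂ)) →
    DGEquivalent (DBun Γ Z m h c) (DBun Γ Z' m' h (-1 / (r * c))) ∧
    DGEquivalent (DBun Γ Z m h c) (BGT Γ) ∧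
    ∃ K : Cx (DBun Γ Z m h c), K.Cart ∧ ¬ K.Acyclic := by
  intro N Γ hP hS Z Z' m m' hZ hZ' h r hh hr c hc
  rw [span_van] at hP
  have hK : KilDet Γ := kilDet_of_isSimple
  have := hZ.2.1
  have := hZ'.2.1
  have : NeZero m := ⟨hZ.1⟩
  have : NeZero m' := ⟨hZ'.1⟩
  have h1 : DGEquivalent (DBun Γ Z m h c) (BGT Γ) :=
    main hP hK (fun ζ hζ => (hZ.2.2 ζ hζ).1) (not_resonant hh hc)
  have h2 : DGEquivalent (DBun Γ Z' m' h (-1 / (r * c))) (BGT Γ) :=
    main hP hK (fun ζ hζ => (hZ'.2.2 ζ hζ).1) (not_resonant hh (irrational_inv hr hc))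
  exact ⟨h1.trans _ _ _ (h2.symm _ _), h1, nonzero_Bun Γ Z m _⟩

end Vale.Agent.Results.P286.GenusZeroSimple
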